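import Vale.Agent.P151.H648.Main
import Vale.Agent.P151.R2.H279.Induct

open MeasureTheory ProbabilityTheory

namespace Vale.Agent.Results.P151.ExpPowerGrowth

open Vale.Agent.P151 Vale.Agent.P151.H648

/-- The balls around some vertex `o` grow at least as fast as `exp (c n ^ a)`, for some exponent
`a > 0` (as small as one likes) and some `c > 0`. -/
def HasExpPowerGrowth {V : Type} (G : SimpleGraph V) : Prop :=
  ∃ (o : V) (a c : ℝ), 0 < a ∧ 0 < c ∧
    ∀ n : ℕ, Real.exp (c * (n : ℝ) ^ a) ≤ ({y | G.dist o y ≤ n}.ncard : ℝ)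

/-- **The phase transition is continuous on every quasi-transitive graph of growth at least
`exp (c n ^ a)`, `a > 0` arbitrary.** Let `G` be a connected, locally finite, quasi-transitive
graph with `p_c(G) < 1` and `|B(o, n)| ≥ exp (c n ^ a)` for all `n`, for some vertex `o` and some
`a, c > 0`. For Bernoulli bond percolation, for every `p ≤ p_c`, in particular at `p_c`, there is
almost surely no infinite open cluster and the percolation probabilities `θ_x` are continuous at
`p`; moreover `p_c > 0` and `θ_x(p) ≥ c' (p - p_c)` for `p ≥ p_c`; if `G` is amenable, then every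
`θ_x` is continuous on `[0, 1]` and for `p > p_c` there is almost surely exactly one infinite open
cluster. -/
theorem result (V : Type) (G : SimpleGraph V) [G.LocallyFinite] (hG : G.Connected)
    (hqt : IsQuasiTransitive G) (hpc1 : pc G < 1) (hgr : HasExpPowerGrowth G) :
    (∀ p : unitInterval, (p : ℝ) ≤ pc G →
      setBernoulli G.edgeSet p (hasInfiniteCluster V) = 0 ∧
      ∀ x : V, ContinuousAt (theta G x) p) ∧
    (0 < pc G ∧ ∀ x : V, ∃ c : ℝ, 0 < c ∧ ∀ p : unitInterval, pc G ≤ p →
      c * (p - pc G) ≤ theta G x p) ∧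
    (IsAmenable G → (∀ x : V, Continuous (theta G x)) ∧
      ∀ p : unitInterval, pc G < p →
        setBernoulli G.edgeSet p (uniqueInfiniteCluster V)ᶜ = 0) := by
  classical
  obtain ⟨o, a, c, ha, hc, h⟩ := hgr
  have hball : ∀ r : ℕ, Real.exp (c * (r : ℝ) ^ a) ≤ (ballF G o r).card := by
    intro r
    have h1 : {y | G.dist o y ≤ r} = (ballF G o r : Set V) := by
      ext y
      rw [Set.mem_setOf_eq, Finset.mem_coe, mem_ballF_iff hG, SimpleGraph.dist_comm]
    have h2 := h r
    rw [h1, Set.ncard_coe_finset] at h2
    exact h2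
  have hinf : Infinite V := R2.H279.infinite_of_growth hG hqt hc ha hball
  have hno : ∀ p : unitInterval, (p : ℝ) = pc G →
      setBernoulli G.edgeSet p (hasInfiniteCluster V) = 0 := by
    intro p hp
    by_cases ham : IsAmenable G
    · exact R2.H279.amenable_case hG hqt ham hpc1 o hc ha hball p hp
    · exact NA.no_perc_of_nonamenable G hG hqt ham hpc1 p hp
  refine ⟨fun p hp => low hG hno p hp, high hG hqt, fun ham => ?_⟩
  have h3 := amen hG hqt ham hno
  exact ⟨h3.1, h3.2 hinf⟩

end Vale.Agent.Results.P151.ExpPowerGrowth
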